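import Mathlib
import Vale.Agent.P230.Final

/-! Lattice coverings by an arbitrary convex body with density `O(n (log n)^(4/3))`. -/

namespace Vale.Agent.Results.P230.LatticePolylog

open MeasureTheory

/-- There is `C > 0` such that, for all large `n`, every convex body `K ⊂ ℝⁿ` admits a lattice
`A ℤⁿ` with `K + A ℤⁿ = ℝⁿ` and `vol K / |det A| ≤ C n (log n)^(4/3)`. -/
theorem result : ∃ C : ℝ, 0 < C ∧ ∃ N : ℕ, ∀ n ≥ N, ∀ K : Set (Fin n → ℝ), Convex ℝ K →
    IsCompact K → (interior K).Nonempty → ∃ A : Matrix (Fin n) (Fin n) ℝ, A.det ≠ 0 ∧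
      (∀ x, ∃ z : Fin n → ℤ, x - A.mulVec (fun i => (z i : ℝ)) ∈ K) ∧
      (volume K).toReal ≤ C * n * (Real.log n) ^ (4/3 : ℝ) * |A.det| :=
  Vale.Agent.P230.lattice_cover_polylog

end Vale.Agent.Results.P230.LatticePolylog
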