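import Mathlib
import Vale.Agent.P230.Lower.Main

namespace Vale.Agent.Results.P230.ThetaTLower

open MeasureTheory Filter Set
open scoped ENNReal

/-- In every sufficiently high dimension some convex body has translative covering density
at least `c n log n`. -/
theorem result : ∃ c : ℝ, 0 < c ∧ ∃ N : ℕ, ∀ n ≥ N, ∃ K : Set (Fin n → ℝ),
    Convex ℝ K ∧ IsCompact K ∧ (interior K).Nonempty ∧
      ∀ X : Set (Fin n → ℝ), (∀ B : Set (Fin n → ℝ), Bornology.IsBounded B → (X ∩ B).Finite) →
        (∀ x, ∃ p ∈ X, x - p ∈ K) →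
        ENNReal.ofReal (c * n * Real.log n) ≤ volume K *
          limsup (fun R : ℝ =>
            ((X ∩ Icc (fun _ => -R) (fun _ => R)).ncard : ℝ≥0∞) / ENNReal.ofReal ((2 * R) ^ n))
            atTop := by
  obtain ⟨N, hN⟩ := eventually_atTop.1 Vale.Agent.P230.Lower.allBig_eventually
  refine ⟨Vale.Agent.P230.Lower.cLow, div_pos Vale.Agent.P230.Lower.kap_pos
    (by norm_num [Vale.Agent.P230.Lower.Lam, Vale.Agent.P230.Lower.sg]), N,
    fun n hn => Vale.Agent.P230.Lower.lower_main (hN n hn)⟩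

end Vale.Agent.Results.P230.ThetaTLower
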